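import Vale.Agent.P036.Final

namespace Vale.Agent.Results.P036.Power

/-- Area of the triangle with vertices `p`, `q`, `r`. -/
noncomputable def area (p q r : ℝ × ℝ) : ℝ :=
  |(q.1 - p.1) * (r.2 - p.2) - (q.2 - p.2) * (r.1 - p.1)| / 2

/-- Smallest area of a triangle spanned by three distinct points of `P`. -/
noncomputable def minArea (P : Finset (ℝ × ℝ)) : ℝ :=
  sInf {A : ℝ | ∃ p ∈ P, ∃ q ∈ P, ∃ r ∈ P, p ≠ q ∧ p ≠ r ∧ q ≠ r ∧ A = area p q r}

/-- The Heilbronn function of the unit square. -/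
noncomputable def Delta (n : ℕ) : ℝ :=
  sSup {A : ℝ | ∃ P : Finset (ℝ × ℝ),
    (∀ p ∈ P, p.1 ∈ Set.Icc (0 : ℝ) 1 ∧ p.2 ∈ Set.Icc (0 : ℝ) 1) ∧ P.card = n ∧ A = minArea P}

lemma minArea_le (P : Finset (ℝ × ℝ))
    (hP : ∀ p ∈ P, p.1 ∈ Set.Icc (0 : ℝ) 1 ∧ p.2 ∈ Set.Icc (0 : ℝ) 1) : minArea P ≤ 1 := by
  unfold minArea
  rcases Set.eq_empty_or_nonempty
    {A : ℝ | ∃ p ∈ P, ∃ q ∈ P, ∃ r ∈ P, p ≠ q ∧ p ≠ r ∧ q ≠ r ∧ A = area p q r} with h | ⟨A, hA⟩
  · rw [h, Real.sInf_empty]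
    exact zero_le_one
  · refine (csInf_le ⟨0, ?_⟩ hA).trans ?_
    · rintro B ⟨p, -, q, -, r, -, -, -, -, rfl⟩
      unfold area
      positivity
    · obtain ⟨p, hp, q, hq, r, hr, -, -, -, rfl⟩ := hA
      obtain ⟨⟨a1, a2⟩, a3, a4⟩ := hP p hp
      obtain ⟨⟨b1, b2⟩, b3, b4⟩ := hP q hq
      obtain ⟨⟨c1, c2⟩, c3, c4⟩ := hP r hr
      have h1 : |(q.1 - p.1) * (r.2 - p.2)| ≤ 1 := by
        rw [abs_mul]
        exact mul_le_one₀ (abs_le.2 ⟨by linarith, by linarith⟩) (abs_nonneg _)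
          (abs_le.2 ⟨by linarith, by linarith⟩)
      have h2 : |(q.2 - p.2) * (r.1 - p.1)| ≤ 1 := by
        rw [abs_mul]
        exact mul_le_one₀ (abs_le.2 ⟨by linarith, by linarith⟩) (abs_nonneg _)
          (abs_le.2 ⟨by linarith, by linarith⟩)
      have h3 := abs_sub ((q.1 - p.1) * (r.2 - p.2)) ((q.2 - p.2) * (r.1 - p.1))
      unfold area
      linarith

lemma lower : ∃ η : ℝ, 0 < η ∧ ∃ c : ℝ, 0 < c ∧ ∃ n0 : ℕ, ∀ n : ℕ, n0 ≤ n →
    c * (n : ℝ) ^ (-2 + η) ≤ Delta n := by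
  classical
  obtain ⟨η, c, n0, hη, hc, h⟩ := Vale.Agent.P036.points
  refine ⟨η, hη, c, hc, n0 + 3, fun n hn => ?_⟩
  obtain ⟨x, hx, hd⟩ := h n (by omega)
  have hn0 : (0 : ℝ) < n := by exact_mod_cast (show 0 < n by omega)
  have hpos : 0 < c * (n : ℝ) ^ (-2 + η) := by positivity
  have hinj : Function.Injective x := by
    intro i j hij
    by_contra hne
    obtain ⟨k, hk⟩ : ∃ k, k ∉ ({i, j} : Finset (Fin n)) := by
      by_contra hall
      push Not at hall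
      have h1 : (Finset.univ : Finset (Fin n)).card ≤ ({i, j} : Finset (Fin n)).card :=
        Finset.card_le_card fun k _ => hall k
      have h2 := Finset.card_le_two (a := i) (b := j)
      rw [Finset.card_univ, Fintype.card_fin] at h1
      omega
    simp only [Finset.mem_insert, Finset.mem_singleton, not_or] at hk
    have := hd i j k hne (Ne.symm hk.1) (Ne.symm hk.2)
    rw [hij] at this
    simp only [sub_self, zero_mul, abs_zero, zero_div] at this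
    linarith
  have hle : c * (n : ℝ) ^ (-2 + η) ≤ minArea (Finset.univ.image x) := by
    apply le_csInf
    · refine ⟨_, x ⟨0, by omega⟩, Finset.mem_image_of_mem _ (Finset.mem_univ _),
        x ⟨1, by omega⟩, Finset.mem_image_of_mem _ (Finset.mem_univ _),
        x ⟨2, by omega⟩, Finset.mem_image_of_mem _ (Finset.mem_univ _),
        hinj.ne (by simp), hinj.ne (by simp), hinj.ne (by simp), rfl⟩
    · rintro A ⟨p, hp, q, hq, r, hr, h1, h2, h3, rfl⟩
      obtain ⟨i, -, rfl⟩ := Finset.mem_image.1 hp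
      obtain ⟨j, -, rfl⟩ := Finset.mem_image.1 hq
      obtain ⟨k, -, rfl⟩ := Finset.mem_image.1 hr
      exact hd i j k (fun e => h1 (congrArg x e)) (fun e => h2 (congrArg x e))
        (fun e => h3 (congrArg x e))
  refine hle.trans (le_csSup ⟨1, ?_⟩ ⟨Finset.univ.image x, ?_, ?_, rfl⟩)
  · rintro A ⟨P, hP, -, rfl⟩
    exact minArea_le P hP
  · intro p hp
    obtain ⟨i, -, rfl⟩ := Finset.mem_image.1 hp
    exact hx i
  · rw [Finset.card_image_of_injective _ hinj, Finset.card_univ, Fintype.card_fin]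

theorem result :
    (∃ η : ℝ, 0 < η ∧ ∃ c : ℝ, 0 < c ∧ ∃ n0 : ℕ, ∀ n : ℕ, n0 ≤ n →
      c * (n : ℝ) ^ (-2 + η) ≤ Delta n) ∧
    ¬ (∀ ε : ℝ, 0 < ε → ∃ C : ℝ, ∃ n0 : ℕ, ∀ n : ℕ, n0 ≤ n →
      Delta n ≤ C * (n : ℝ) ^ (-2 + ε)) := by
  refine ⟨lower, fun h => ?_⟩
  obtain ⟨η, hη, c, hc, n0, hl⟩ := lower
  obtain ⟨C, n1, hu⟩ := h (η / 2) (by positivity)
  have ht : Filter.Tendsto (fun n : ℕ => c * (n : ℝ) ^ (η / 2)) Filter.atTop Filter.atTop :=
    ((tendsto_rpow_atTop (by positivity)).comp tendsto_natCast_atTop_atTop).const_mul_atTop hc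
  obtain ⟨n, h1, h2⟩ := ((ht.eventually_gt_atTop C).and
    (Filter.eventually_ge_atTop (n0 + n1 + 1))).exists
  have hn0 : (0 : ℝ) < n := by exact_mod_cast (show 0 < n by omega)
  have h3 := (hl n (by omega)).trans (hu n (by omega))
  rw [show -2 + η = η / 2 + (-2 + η / 2) by ring, Real.rpow_add hn0, ← mul_assoc] at h3
  have h4 := le_of_mul_le_mul_right h3 (Real.rpow_pos_of_pos hn0 _)
  linarith

end Vale.Agent.Results.P036.Power
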